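import Vale.Agent.P122.H518.E12

/-!
# P122 / H314 : lower bound of the entropy of the nodes (helper314)

* `hc_N_sg` : `h(N c | sg c) ≤ 2 / K` (geometric count, without [B1]);
* `H_ge` : `H i ≤ H j + 4 (j - i) / K` for `i ≤ j ≤ K`;
* `H_le` : `H j ≤ H i + (nM J j - nM J i)`.
-/

set_option autoImplicit false

namespace Vale.Agent.P122.H314

open Filter Topology Finset Vale.Agent.P127 Vale.Agent.P127.Stk Vale.Agent.P127.U Vale.Agent.P127.U.Sys
  Vale.Agent.P122.C2 Vale.Agent.P122.E Vale.Agent.P122.H518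

variable {K : ℕ}

/-- the nodes of a piece: `2^(2 n)` values -/
theorem cnt_N_sg (F : Flg K) (hK : 1 ≤ K) (c : ℕ) : Cnt F.S (F.N c) (F.sg c) (2 / K) := by
  classical
  intro ε hε
  refine Eventually.of_forall fun i ω hω => ?_
  refine ⟨(Fintype.piFinset fun k => Finset.Ico (2 ^ F.n i * ((F.N c i ω).o k / 2 ^ F.n i))
    (2 ^ F.n i * ((F.N c i ω).o k / 2 ^ F.n i + 1))).image fun o => (⟨(F.N c i ω).τ, o, (F.N c i ω).T⟩ : Nd), ?_, ?_⟩
  · have h1 : ((Fintype.piFinset fun k => Finset.Ico (2 ^ F.n i * ((F.N c i ω).o k / 2 ^ F.n i))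
        (2 ^ F.n i * ((F.N c i ω).o k / 2 ^ F.n i + 1))).card : ℝ) = ((2 ^ (2 * F.n i) : ℕ) : ℝ) := by
      rw [Fintype.card_piFinset]
      have h : ∀ k : Fin 2, (Finset.Ico (2 ^ F.n i * ((F.N c i ω).o k / 2 ^ F.n i))
          (2 ^ F.n i * ((F.N c i ω).o k / 2 ^ F.n i + 1))).card = 2 ^ F.n i := by
        intro k
        rw [Int.card_Ico]
        have : (2 ^ F.n i * ((F.N c i ω).o k / 2 ^ F.n i + 1) - 2 ^ F.n i * ((F.N c i ω).o k / 2 ^ F.n i) : ℤ) =
            ((2 ^ F.n i : ℕ) : ℤ) := by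
          push_cast
          ring
        rw [this, Int.toNat_natCast]
      rw [Finset.prod_congr rfl fun k _ => h k, Fin.prod_const, two_mul, pow_add]
      push_cast
      ring
    have h0 : (((Fintype.piFinset fun k => Finset.Ico (2 ^ F.n i * ((F.N c i ω).o k / 2 ^ F.n i))
        (2 ^ F.n i * ((F.N c i ω).o k / 2 ^ F.n i + 1))).image
          fun o => (⟨(F.N c i ω).τ, o, (F.N c i ω).T⟩ : Nd)).card : ℝ) ≤ ((2 ^ (2 * F.n i) : ℕ) : ℝ) := by
      rw [← h1]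
      exact_mod_cast Finset.card_image_le
    refine h0.trans ?_
    have hK' : (0 : ℝ) < K := by exact_mod_cast hK
    have h2 : ((2 ^ (2 * F.n i) : ℕ) : ℝ) = (2 : ℝ) ^ ((2 / K) * (F.S.L i : ℝ)) := by
      rw [F.L_eq i]
      push_cast
      have h3 : (2 : ℝ) / K * (K * F.n i) = ((2 * F.n i : ℕ) : ℝ) := by
        push_cast
        field_simp
      rw [h3, Real.rpow_natCast]
    rw [h2]
    refine Real.rpow_le_rpow_of_exponent_le (by norm_num) ?_
    have h4 : (0 : ℝ) ≤ F.S.L i := Nat.cast_nonneg _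
    nlinarith
  · intro ω' hω' e
    have e' : (F.N c i ω').sg (F.n i) = (F.N c i ω).sg (F.n i) := e
    have eτ0 : ((F.N c i ω').sg (F.n i)).τ = ((F.N c i ω).sg (F.n i)).τ := congrArg Nd.τ e'
    have eT0 : ((F.N c i ω').sg (F.n i)).T = ((F.N c i ω).sg (F.n i)).T := congrArg Nd.T e'
    have eτ : (F.N c i ω').τ = (F.N c i ω).τ := eτ0
    have eT : (F.N c i ω').T = (F.N c i ω).T := eT0
    have eo : ∀ k, (F.N c i ω').o k / 2 ^ F.n i = (F.N c i ω).o k / 2 ^ F.n i := fun k =>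
      congrFun (congrArg Nd.o e') k
    rw [Finset.mem_image]
    refine ⟨(F.N c i ω').o, ?_, ?_⟩
    · rw [Fintype.mem_piFinset]
      intro k
      have hp : (0 : ℤ) < 2 ^ F.n i := by positivity
      rw [Finset.mem_Ico, ← eo k]
      constructor
      · exact Int.mul_ediv_self_le hp.ne'
      · exact Int.lt_mul_ediv_self_add hp |>.trans_eq (by ring)
    · rw [← eτ, ← eT]

/-- `h(N c | sg c) ≤ 2 / K` -/
theorem hc_N_sg (F : Flg K) (hK : 1 ≤ K) (c : ℕ) : F.S.hc (F.N c) (F.sg c) ≤ 2 / K :=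
  cnt_hc_le (cnt_N_sg F hK c)

variable {F : Flg K} {J θ H e : ℕ → ℝ} {W : ℕ → F.S.BX} {kk jj : ℕ → ℕ → ℕ}

/-- the tree of a regular system with the trivial losses -/
theorem cts0 (hK : 1 ≤ K) (hA : RegA F J θ H e W kk jj) :
    Cts F.S K F.N F.Y F.T F.sg H J (fun _ => 0) := by
  have h := cts hK hA
  exact ⟨h.tre, h.H0, h.hJ, h.hU, h.hN, fun c _ => by
    have := hc_N_sg F hK c
    simpa using this, h.hT⟩

/-- `h(N i | N j) ≤ 4 (j - i) / K` -/
theorem hc_NN_le (hK : 1 ≤ K) (hA : RegA F J θ H e W kk jj) {i j : ℕ} (hij : i ≤ j) (hj : j ≤ K) :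
    F.S.hc (F.N i) (F.N j) ≤ 4 * ((j : ℝ) - i) / K := by
  have h := cts0 hK hA
  have h1 := h.hc_NN_cut hij hj
  have h2 := h.Dn_nonneg hij hj
  have h3 := h.Cn_ge hij hj
  simp only [Finset.sum_const_zero, mul_zero] at h3
  unfold Cts.Dn at h2
  unfold Cts.Cn at h3
  have h4 : 4 * ((j : ℝ) - i) / K = 2 * ((j : ℝ) - i) / K + 2 * ((j : ℝ) - i) / K := by ring
  rw [h1, h4]
  linarith

/-- **lower bound of the entropy of the nodes** -/
theorem H_ge (hK : 1 ≤ K) (hA : RegA F J θ H e W kk jj) {i j : ℕ} (hij : i ≤ j) (hj : j ≤ K) :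
    H i ≤ H j + 4 * ((j : ℝ) - i) / K := by
  have h := cts0 hK hA
  have h1 := hc_NN_le hK hA hij hj
  have h2 := h.hc_NN hij hj
  have h3 := sum_range_add_sum_Ico J hij
  have h4 : 0 ≤ ∑ k ∈ Ico i j, J k := Finset.sum_nonneg fun k hk => by
    rw [Finset.mem_Ico] at hk
    exact hA.J0 k (hk.2.trans_le hj)
  linarith

/-- upper bound of the entropy of the nodes -/
theorem H_le (hK : 1 ≤ K) (hA : RegA F J θ H e W kk jj) {i j : ℕ} (hij : i ≤ j) (hj : j ≤ K) :
    H j ≤ H i + (nM J j - nM J i) := by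
  have h := cts0 hK hA
  have h2 := h.hc_NN hij hj
  have h5 := hc_nonneg (h.tre.tN i (hij.trans hj)) (F.N j)
  unfold nM
  linarith

end Vale.Agent.P122.H314
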